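import Vale.Agent.P235.K5.H803.CSum
import Vale.Agent.P235.Comp.Defs

/-!
P235, K5 line, SX, row [S5b] (helper803).  A sum over cliques with at most three vertices whose
pieces are of type P or of treewidth at most `w` (type T): the T pieces are cut into one-vertex
steps.
-/

set_option autoImplicit false
set_option linter.all false

namespace Vale.Agent.P235.K5.SX.H803

open SimpleGraph Vale.Agent.P235 Vale.Agent.P235.K5

/-- [S5a] an elimination order of a graph of treewidth at most `w` which starts with the clique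
`R` -/
def ElimStmt : Prop :=
  ∀ (W : Type) [Finite W] [Nonempty W] (G : SimpleGraph W) (w : ℕ) (R : Set W), TreewidthLE G w →
    (∀ u ∈ R, ∀ v ∈ R, u ≠ v → G.Adj u v) →
    ∃ (m : ℕ) (v : ℕ → W) (N : ℕ → Set W), (∀ i < m, v i ∉ R) ∧
      (∀ i < m, ∀ j < m, v i = v j → i = j) ∧ (∀ x, x ∉ R → ∃ i < m, v i = x) ∧
      (∀ i < m, ∀ y ∈ N i, y ∈ R ∨ ∃ j < i, v j = y) ∧ (∀ i < m, (N i).ncard ≤ w) ∧
      (∀ i < m, ∀ a ∈ N i, ∀ b ∈ N i, a ≠ b →
        (a ∈ R ∧ b ∈ R) ∨ (∃ j < i, v j = a ∧ b ∈ N j) ∨ ∃ j < i, v j = b ∧ a ∈ N j) ∧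
      ∀ i < m, ∀ y, G.Adj (v i) y → (y ∈ R ∨ ∃ j < i, v j = y) → y ∈ N i

variable {V : Type}

/-- a prefix of the fine sequence; `D` is the set of the vertices which are in it -/
structure Pref (H' : SimpleGraph V) (k : ℕ) (ty : ℕ → Prop) (B : ℕ → Set V) (c M n' : ℕ)
    (B' : ℕ → Set V) (φ : ℕ → ℕ) (D : Set V) : Prop where
  bef : Bef B' n' = D
  card : ∀ s < n', (Adh B' s).ncard ≤ k
  clique : ∀ s < n', ∀ u ∈ Adh B' s, ∀ v ∈ Adh B' s, u ≠ v → H'.Adj u v
  sep : ∀ s < n', ∀ u v, u ∈ B' s → u ∉ Bef B' s → v ∈ Bef B' s → v ∉ B' s → ¬ H'.Adj u v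
  lt : ∀ s < n', φ s < M
  mono : ∀ s s', s ≤ s' → s' < n' → φ s ≤ φ s'
  new : ∀ s < n', ∃ v ∈ B' s, v ∉ Bef B' s
  sub : ∀ s < n', B' s ⊆ B (φ s)
  typ : ∀ s < n', (¬ ty (φ s) ∧ B' s = B (φ s) ∧ Adh B' s = Adh B (φ s)) ∨
    (ty (φ s) ∧ ∃ v, v ∉ Bef B' s ∧ B' s = insert v (Adh B' s))
  cov : ∀ t < c, ∀ v ∈ B t, ∃ s < n', φ s ≤ t ∧ v ∈ B' s

theorem bef_update {B : ℕ → Set V} {n s : ℕ} (hs : s ≤ n) (X : Set V) :
    Bef (Function.update B n X) s = Bef B s := by
  ext v
  constructor
  · rintro ⟨i, hi, h⟩
    rw [Function.update_of_ne (by omega)] at h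
    exact ⟨i, hi, h⟩
  · rintro ⟨i, hi, h⟩
    refine ⟨i, hi, ?_⟩
    rw [Function.update_of_ne (by omega)]
    exact h

theorem adh_update {B : ℕ → Set V} {n s : ℕ} (hs : s < n) (X : Set V) :
    Adh (Function.update B n X) s = Adh B s := by
  ext v
  change (v ∈ Function.update B n X s ∧ v ∈ Bef (Function.update B n X) s) ↔
    (v ∈ B s ∧ v ∈ Bef B s)
  rw [Function.update_of_ne (by omega), bef_update hs.le]

theorem Pref.snoc {H' : SimpleGraph V} {k : ℕ} {ty : ℕ → Prop} {B : ℕ → Set V} {c m n' : ℕ}
    {B' : ℕ → Set V} {φ : ℕ → ℕ} {D : Set V} (h : Pref H' k ty B c (m + 1) n' B' φ D)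
    (X : Set V) (h1 : (X ∩ D).ncard ≤ k)
    (h2 : ∀ u ∈ X ∩ D, ∀ v ∈ X ∩ D, u ≠ v → H'.Adj u v)
    (h3 : ∀ u v, u ∈ X → u ∉ D → v ∈ D → v ∉ X → ¬ H'.Adj u v) (h4 : ∃ v ∈ X, v ∉ D)
    (h5 : X ⊆ B m)
    (h6 : (¬ ty m ∧ X = B m ∧ X ∩ D = Adh B m) ∨ (ty m ∧ ∃ v, v ∉ D ∧ X = insert v (X ∩ D))) :
    Pref H' k ty B c (m + 1) (n' + 1) (Function.update B' n' X) (Function.update φ n' m)
      (D ∪ X) := by
  have hBn : Function.update B' n' X n' = X := Function.update_self _ _ _
  have hφn : Function.update φ n' m n' = m := Function.update_self _ _ _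
  have hB : ∀ s < n', Function.update B' n' X s = B' s := fun s hs =>
    Function.update_of_ne (by omega) _ _
  have hφ : ∀ s < n', Function.update φ n' m s = φ s := fun s hs =>
    Function.update_of_ne (by omega) _ _
  have hbn : Bef (Function.update B' n' X) n' = D := by rw [bef_update le_rfl, h.bef]
  have hadn : Adh (Function.update B' n' X) n' = X ∩ D := by
    ext v
    change (v ∈ Function.update B' n' X n' ∧ v ∈ Bef (Function.update B' n' X) n') ↔ _
    rw [hBn, hbn]
    rfl
  have hcase : ∀ s < n' + 1, s < n' ∨ s = n' := fun s hs => by omega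
  constructor
  · ext v
    constructor
    · rintro ⟨s, hs, hv⟩
      rcases hcase s hs with h' | rfl
      · rw [hB s h'] at hv
        left
        rw [← h.bef]
        exact ⟨s, h', hv⟩
      · rw [hBn] at hv
        exact Or.inr hv
    · rintro (hv | hv)
      · rw [← h.bef] at hv
        obtain ⟨s, hs, hv⟩ := hv
        exact ⟨s, by omega, by rw [hB s hs]; exact hv⟩
      · exact ⟨n', by omega, by rw [hBn]; exact hv⟩
  · intro s hs
    rcases hcase s hs with h' | rfl
    · rw [adh_update h']; exact h.card s h'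
    · rw [hadn]; exact h1
  · intro s hs
    rcases hcase s hs with h' | rfl
    · rw [adh_update h']; exact h.clique s h'
    · rw [hadn]; exact h2
  · intro s hs u v
    rcases hcase s hs with h' | rfl
    · rw [hB s h', bef_update h'.le]; exact h.sep s h' u v
    · rw [hBn, hbn]; exact h3 u v
  · intro s hs
    rcases hcase s hs with h' | rfl
    · rw [hφ s h']; exact h.lt s h'
    · rw [hφn]; omega
  · intro s s' hss hs'
    rcases hcase s' hs' with h' | rfl
    · rw [hφ s' h', hφ s (by omega)]; exact h.mono s s' hss h'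
    · rw [hφn]
      rcases hcase s (by omega) with h' | rfl
      · rw [hφ s h']; have := h.lt s h'; omega
      · rw [hφn]
  · intro s hs
    rcases hcase s hs with h' | rfl
    · rw [hB s h', bef_update h'.le]; exact h.new s h'
    · rw [hBn, hbn]; exact h4
  · intro s hs
    rcases hcase s hs with h' | rfl
    · rw [hB s h', hφ s h']; exact h.sub s h'
    · rw [hBn, hφn]; exact h5
  · intro s hs
    rcases hcase s hs with h' | rfl
    · rw [hB s h', hφ s h', adh_update h', bef_update h'.le]; exact h.typ s h'
    · rw [hBn, hφn, hadn, hbn]; exact h6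
  · intro t ht v hv
    obtain ⟨s, hs, h7, h8⟩ := h.cov t ht v hv
    exact ⟨s, by omega, by rw [hφ s hs]; exact h7, by rw [hB s hs]; exact h8⟩

/-- the first bag with a given vertex is unique -/
theorem new_unique {B : ℕ → Set V} {t t' : ℕ} {x : V} (h1 : x ∈ B t) (h2 : x ∉ Bef B t)
    (h3 : x ∈ B t') (h4 : x ∉ Bef B t') : t = t' := by
  by_contra hne
  rcases Nat.lt_or_gt_of_ne hne with h | h
  · exact h4 ⟨t, h, h1⟩
  · exact h2 ⟨t', h, h3⟩

/-- **[S5] REFINE** -/
theorem refine (hE : ElimStmt) [Finite V] {H : SimpleGraph V} {n w : ℕ} {B : ℕ → Set V}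
    (ty : ℕ → Prop) (h : Glued 3 H n B)
    (hT : ∀ t < n, ty t → TreewidthLE (H.induce (B t)) w) :
    ∃ (H' : SimpleGraph V) (n' : ℕ) (B' : ℕ → Set V) (φ : ℕ → ℕ), H ≤ H' ∧
      (∀ u v, H'.Adj u v → ¬ H.Adj u v → ∃ t < n, ty t ∧ u ∈ B t ∧ v ∈ B t) ∧
      Glued (max 3 w) H' n' B' ∧ (∀ s < n', φ s < n) ∧
      (∀ s s', s ≤ s' → s' < n' → φ s ≤ φ s') ∧ (∀ s < n', ∃ v ∈ B' s, v ∉ Bef B' s) ∧
      (∀ s < n', B' s ⊆ B (φ s)) ∧
      (∀ s < n', (¬ ty (φ s) ∧ B' s = B (φ s) ∧ Adh B' s = Adh B (φ s)) ∨
        (ty (φ s) ∧ ∃ v, v ∉ Bef B' s ∧ B' s = insert v (Adh B' s))) ∧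
      (∀ t < n, ∀ v ∈ B t, ∃ s < n', φ s ≤ t ∧ v ∈ B' s) := by
  classical
  rcases isEmpty_or_nonempty V with hV | ⟨⟨v0⟩⟩
  · exact ⟨H, 0, fun _ => ∅, fun _ => 0, le_rfl, fun u => (hV.false u).elim,
      ⟨fun v => (hV.false v).elim, by omega, by omega, by omega⟩, by omega, by omega, by omega,
      by omega, by omega, fun t _ v => (hV.false v).elim⟩
  -- the orders of the T pieces, in `V`
  have hord : ∀ t, ∃ (m : ℕ) (v : ℕ → V) (N : ℕ → Set V), t < n → ty t →
      (∀ i < m, v i ∈ B t ∧ v i ∉ Bef B t) ∧ (∀ i < m, ∀ j < m, v i = v j → i = j) ∧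
      (∀ x ∈ B t, x ∉ Bef B t → ∃ i < m, v i = x) ∧
      (∀ i < m, N i ⊆ B t) ∧
      (∀ i < m, ∀ y ∈ N i, y ∈ Bef B t ∨ ∃ j < i, v j = y) ∧ (∀ i < m, (N i).ncard ≤ w) ∧
      (∀ i < m, ∀ a ∈ N i, ∀ b ∈ N i, a ≠ b →
        (a ∈ Adh B t ∧ b ∈ Adh B t) ∨ (∃ j < i, v j = a ∧ b ∈ N j) ∨ ∃ j < i, v j = b ∧ a ∈ N j) ∧
      ∀ i < m, ∀ y ∈ B t, H.Adj (v i) y → (y ∈ Bef B t ∨ ∃ j < i, v j = y) → y ∈ N i := by
    intro t
    by_cases ht : t < n ∧ ty t
    · by_cases hBt : Nonempty (B t)
      · obtain ⟨m, v, N, a1, a2, a3, a4, a5, a6, a7⟩ :=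
          hE (B t) (H.induce (B t)) w {x | (x : V) ∈ Adh B t} (hT t ht.1 ht.2)
            (fun u hu v hv huv => h.clique t ht.1 u hu v hv fun e => huv (Subtype.ext e))
        refine ⟨m, fun i => v i, fun i => Subtype.val '' N i, fun _ _ => ⟨?_, ?_, ?_, ?_, ?_, ?_,
          ?_, ?_⟩⟩
        · intro i hi
          exact ⟨(v i).2, fun hb => a1 i hi ⟨(v i).2, hb⟩⟩
        · intro i hi j hj hij
          exact a2 i hi j hj (Subtype.ext hij)
        · intro x hx hx'
          obtain ⟨i, hi, hix⟩ := a3 ⟨x, hx⟩ fun hb => hx' hb.2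
          exact ⟨i, hi, congrArg Subtype.val hix⟩
        · rintro i hi _ ⟨y, _, rfl⟩
          exact y.2
        · rintro i hi _ ⟨y, hy, rfl⟩
          rcases a4 i hi y hy with h1 | ⟨j, hj, h1⟩
          · exact Or.inl h1.2
          · exact Or.inr ⟨j, hj, congrArg Subtype.val h1⟩
        · intro i hi
          exact (Set.ncard_image_le (Set.toFinite _)).trans (a5 i hi)
        · rintro i hi _ ⟨a, ha, rfl⟩ _ ⟨b, hb, rfl⟩ hab
          rcases a6 i hi a ha b hb (fun e => hab (congrArg Subtype.val e)) with h1 |
            ⟨j, hj, h1, h2⟩ | ⟨j, hj, h1, h2⟩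
          · exact Or.inl h1
          · exact Or.inr (Or.inl ⟨j, hj, congrArg Subtype.val h1, ⟨b, h2, rfl⟩⟩)
          · exact Or.inr (Or.inr ⟨j, hj, congrArg Subtype.val h1, ⟨a, h2, rfl⟩⟩)
        · intro i hi y hy hadj hor
          refine ⟨⟨y, hy⟩, a7 i hi ⟨y, hy⟩ hadj ?_, rfl⟩
          rcases hor with h1 | ⟨j, hj, h1⟩
          · exact Or.inl ⟨hy, h1⟩
          · exact Or.inr ⟨j, hj, Subtype.ext h1⟩
      · refine ⟨0, fun _ => v0, fun _ => ∅, fun _ _ => ⟨by omega, by omega, ?_, by omega,
            by omega, by omega, by omega, by omega⟩⟩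
        intro x hx
        exact (hBt ⟨⟨x, hx⟩⟩).elim
    · exact ⟨0, fun _ => v0, fun _ => ∅, fun h1 h2 => (ht ⟨h1, h2⟩).elim⟩
  choose m v N hN using hord
  -- the extra edges
  obtain ⟨X, hX⟩ : ∃ X : V → V → Prop, X = fun a b => ∃ t, t < n ∧ ty t ∧ ∃ i < m t,
    a = v t i ∧ b ∈ N t i := ⟨_, rfl⟩
  have hXne : ∀ a b, X a b → a ≠ b := by
    intro a b hab
    rw [hX] at hab
    obtain ⟨t, ht, hty, i, hi, rfl, hb⟩ := hab
    obtain ⟨a1, a2, a3, a4, a5, a6, a7, a8⟩ := hN t ht hty
    rintro rfl
    rcases a5 i hi _ hb with h1 | ⟨j, hj, h1⟩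
    · exact (a1 i hi).2 h1
    · have := a2 j (by omega) i hi h1
      omega
  have hXt : ∀ a b, X a b → ∃ t, t < n ∧ ty t ∧ a ∈ B t ∧ a ∉ Bef B t ∧ b ∈ B t := by
    intro a b hab
    rw [hX] at hab
    obtain ⟨t, ht, hty, i, hi, rfl, hb⟩ := hab
    obtain ⟨a1, a2, a3, a4, a5, a6, a7, a8⟩ := hN t ht hty
    exact ⟨t, ht, hty, (a1 i hi).1, (a1 i hi).2, a4 i hi hb⟩
  obtain ⟨H', hH'⟩ : ∃ H' : SimpleGraph V, ∀ a b, H'.Adj a b ↔ H.Adj a b ∨ X a b ∨ X b a :=
    ⟨{ Adj := fun a b => H.Adj a b ∨ X a b ∨ X b a
       symm := ⟨fun a b hab => by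
        rcases hab with h1 | h1 | h1
        · exact Or.inl h1.symm
        · exact Or.inr (Or.inr h1)
        · exact Or.inr (Or.inl h1)⟩
       loopless := ⟨fun a hab => by
        rcases hab with h1 | h1 | h1
        · exact H.irrefl h1
        · exact hXne a a h1 rfl
        · exact hXne a a h1 rfl⟩ }, fun a b => Iff.rfl⟩
  have hle : H ≤ H' := fun a b hab => (hH' a b).2 (Or.inl hab)
  -- the steps
  have main : ∀ M ≤ n, ∃ (n' : ℕ) (B' : ℕ → Set V) (φ : ℕ → ℕ),
      Pref H' (max 3 w) ty B M M n' B' φ (Bef B M) := by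
    intro M
    induction M with
    | zero =>
      intro _
      refine ⟨0, fun _ => ∅, fun _ => 0, ⟨?_, by omega, by omega, by omega, by omega, by omega,
        by omega, by omega, by omega, by omega⟩⟩
      ext x
      constructor <;> rintro ⟨s, hs, _⟩ <;> omega
    | succ M ih =>
      intro hM
      obtain ⟨n', B', φ, hP⟩ := ih (by omega)
      have hBs : Bef B (M + 1) = Bef B M ∪ B M := by
        ext x
        constructor
        · rintro ⟨s, hs, hx⟩
          by_cases hsM : s = M
          · right; rw [← hsM]; exact hx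
          · left; exact ⟨s, by omega, hx⟩
        · rintro (⟨s, hs, hx⟩ | hx)
          · exact ⟨s, by omega, hx⟩
          · exact ⟨M, by omega, hx⟩
      have hP1 : Pref H' (max 3 w) ty B M (M + 1) n' B' φ (Bef B M) :=
        ⟨hP.bef, hP.card, hP.clique, hP.sep, fun s hs => (hP.lt s hs).trans (by omega), hP.mono,
          hP.new, hP.sub, hP.typ, hP.cov⟩
      -- from the middle to the end
      have fin : ∀ (n'' : ℕ) (B'' : ℕ → Set V) (φ' : ℕ → ℕ),
          Pref H' (max 3 w) ty B M (M + 1) n'' B'' φ' (Bef B (M + 1)) →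
          Pref H' (max 3 w) ty B (M + 1) (M + 1) n'' B'' φ' (Bef B (M + 1)) := by
        intro n'' B'' φ' hQ
        refine ⟨hQ.bef, hQ.card, hQ.clique, hQ.sep, hQ.lt, hQ.mono, hQ.new, hQ.sub, hQ.typ,
          fun t ht x hx => ?_⟩
        by_cases htM : t < M
        · exact hQ.cov t htM x hx
        · have htM' : t = M := by omega
          subst htM'
          have hxb : x ∈ Bef B'' n'' := by
            rw [hQ.bef, hBs]; exact Or.inr hx
          obtain ⟨s, hs, hxs⟩ := hxb
          have := hQ.lt s hs
          exact ⟨s, hs, by omega, hxs⟩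
      by_cases hty : ty M
      · -- type T
        obtain ⟨a1, a2, a3, a4, a5, a6, a7, a8⟩ := hN M (by omega) hty
        have inner : ∀ j ≤ m M, ∃ (n'' : ℕ) (B'' : ℕ → Set V) (φ' : ℕ → ℕ),
            Pref H' (max 3 w) ty B M (M + 1) n'' B'' φ'
              (Bef B M ∪ {x | ∃ l < j, v M l = x}) := by
          intro j
          induction j with
          | zero =>
            intro _
            refine ⟨n', B', φ, ?_⟩
            have : (Bef B M ∪ {x | ∃ l < 0, v M l = x}) = Bef B M := by
              ext x
              constructor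
              · rintro (hx | ⟨l, hl, _⟩)
                · exact hx
                · omega
              · exact Or.inl
            rw [this]
            exact hP1
          | succ j ihj =>
            intro hj
            obtain ⟨n'', B'', φ', hQ⟩ := ihj (by omega)
            have hjm : j < m M := by omega
            have hvn : v M j ∉ Bef B M ∪ {x | ∃ l < j, v M l = x} := by
              rintro (hx | ⟨l, hl, hx⟩)
              · exact (a1 j hjm).2 hx
              · have := a2 l (by omega) j hjm hx
                omega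
            have hND : N M j ⊆ Bef B M ∪ {x | ∃ l < j, v M l = x} := by
              intro y hy
              exact a5 j hjm y hy
            have hXD : insert (v M j) (N M j) ∩ (Bef B M ∪ {x | ∃ l < j, v M l = x}) = N M j := by
              ext x
              constructor
              · rintro ⟨hx | hx, hx'⟩
                · rw [hx] at hx'; exact (hvn hx').elim
                · exact hx
              · exact fun hx => ⟨Or.inr hx, hND hx⟩
            have hst := hQ.snoc (insert (v M j) (N M j))
              (by rw [hXD]; exact (a6 j hjm).trans (le_max_right _ _))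
              (by
                rw [hXD]
                intro a ha b hb hab
                rcases a7 j hjm a ha b hb hab with h1 | ⟨l, hl, h1, h2⟩ | ⟨l, hl, h1, h2⟩
                · exact hle (h.clique M (by omega) a h1.1 b h1.2 hab)
                · refine (hH' a b).2 (Or.inr (Or.inl ?_))
                  rw [hX]
                  exact ⟨M, by omega, hty, l, by omega, h1.symm, h2⟩
                · refine (hH' a b).2 (Or.inr (Or.inr ?_))
                  rw [hX]
                  exact ⟨M, by omega, hty, l, by omega, h1.symm, h2⟩)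
              (by
                intro a b ha haD hbD hbX hadj
                have haj : a = v M j := by
                  rcases ha with ha | ha
                  · exact ha
                  · exact (haD (hND ha)).elim
                subst haj
                rcases (hH' _ _).1 hadj with h1 | h1 | h1
                · by_cases hbB : b ∈ B M
                  · exact hbX (Or.inr (a8 j hjm b hbB h1 hbD))
                  · rcases hbD with hbD | ⟨l, hl, hbl⟩
                    · exact h.sep M (by omega) _ b (a1 j hjm).1 (a1 j hjm).2 hbD hbB h1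
                    · rw [← hbl] at hbB
                      exact hbB (a1 l (by omega)).1
                · rw [hX] at h1
                  obtain ⟨t, ht, htt, i, hi, h2, h3⟩ := h1
                  obtain ⟨c1, c2, c3, c4, c5, c6, c7, c8⟩ := hN t ht htt
                  have htM : t = M := by
                    refine new_unique (c1 i hi).1 (c1 i hi).2 ?_ ?_
                    · rw [← h2]; exact (a1 j hjm).1
                    · rw [← h2]; exact (a1 j hjm).2
                  subst htM
                  have hij := a2 j hjm i hi h2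
                  subst hij
                  exact hbX (Or.inr h3)
                · rw [hX] at h1
                  obtain ⟨t, ht, htt, i, hi, h2, h3⟩ := h1
                  obtain ⟨c1, c2, c3, c4, c5, c6, c7, c8⟩ := hN t ht htt
                  rcases hbD with hbD | ⟨l, hl, hbl⟩
                  · obtain ⟨s, hs, hbs⟩ := hbD
                    have hts : t ≤ s := by
                      by_contra hlt
                      push Not at hlt
                      rw [h2] at hbs
                      exact (c1 i hi).2 ⟨s, hlt, hbs⟩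
                    exact (a1 j hjm).2 ⟨t, by omega, c4 i hi h3⟩
                  · have htM : t = M := by
                      refine new_unique (c1 i hi).1 (c1 i hi).2 ?_ ?_
                      · rw [← h2, ← hbl]; exact (a1 l (by omega)).1
                      · rw [← h2, ← hbl]; exact (a1 l (by omega)).2
                    subst htM
                    have hil := a2 l (by omega) i hi (hbl.trans h2)
                    subst hil
                    rcases a5 l hi _ h3 with h4 | ⟨l', hl', h4⟩
                    · exact (a1 j hjm).2 h4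
                    · have := a2 l' (by omega) j hjm h4
                      omega)
              ⟨v M j, Or.inl rfl, hvn⟩
              (by
                rintro x (hx | hx)
                · rw [hx]; exact (a1 j hjm).1
                · exact a4 j hjm hx)
              (Or.inr ⟨hty, v M j, hvn, by rw [hXD]⟩)
            refine ⟨n'' + 1, Function.update B'' n'' (insert (v M j) (N M j)),
              Function.update φ' n'' M, ?_⟩
            have hset : (Bef B M ∪ {x | ∃ l < j + 1, v M l = x}) =
                (Bef B M ∪ {x | ∃ l < j, v M l = x}) ∪ insert (v M j) (N M j) := by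
              ext x
              constructor
              · rintro (hx | ⟨l, hl, hx⟩)
                · exact Or.inl (Or.inl hx)
                · by_cases hlj : l = j
                  · right; left; rw [← hx, hlj]
                  · left; right; exact ⟨l, by omega, hx⟩
              · rintro ((hx | ⟨l, hl, hx⟩) | (hx | hx))
                · exact Or.inl hx
                · exact Or.inr ⟨l, by omega, hx⟩
                · exact Or.inr ⟨j, by omega, hx.symm⟩
                · rcases hND hx with hx | ⟨l, hl, hx⟩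
                  · exact Or.inl hx
                  · exact Or.inr ⟨l, by omega, hx⟩
            rw [hset]
            exact hst
        obtain ⟨n'', B'', φ', hQ⟩ := inner (m M) le_rfl
        refine ⟨n'', B'', φ', fin _ _ _ ?_⟩
        have hset : Bef B (M + 1) = Bef B M ∪ {x | ∃ l < m M, v M l = x} := by
          rw [hBs]
          ext x
          constructor
          · rintro (hx | hx)
            · exact Or.inl hx
            · by_cases hxb : x ∈ Bef B M
              · exact Or.inl hxb
              · exact Or.inr (a3 x hx hxb)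
          · rintro (hx | ⟨l, hl, hx⟩)
            · exact Or.inl hx
            · right; rw [← hx]; exact (a1 l hl).1
        rw [hset]
        exact hQ
      · -- type P
        by_cases hnew : ∃ x ∈ B M, x ∉ Bef B M
        · have hXD : B M ∩ Bef B M = Adh B M := rfl
          have hst := hP1.snoc (B M)
            (by rw [hXD]; exact (h.card M (by omega)).trans (le_max_left _ _))
            (by
              rw [hXD]
              intro a ha b hb hab
              exact hle (h.clique M (by omega) a ha b hb hab))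
            (by
              intro a b ha haD hbD hbX hadj
              rcases (hH' _ _).1 hadj with h1 | h1 | h1
              · exact h.sep M (by omega) a b ha haD hbD hbX h1
              · obtain ⟨t, ht, htt, h2, h3, h4⟩ := hXt _ _ h1
                have := new_unique h2 h3 ha haD
                rw [this] at htt
                exact hty htt
              · obtain ⟨t, ht, htt, h2, h3, h4⟩ := hXt _ _ h1
                obtain ⟨s, hs, hbs⟩ := hbD
                have hts : t ≤ s := by
                  by_contra hlt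
                  push Not at hlt
                  exact h3 ⟨s, hlt, hbs⟩
                exact haD ⟨t, by omega, h4⟩)
            hnew le_rfl (Or.inl ⟨hty, rfl, hXD⟩)
          refine ⟨n' + 1, Function.update B' n' (B M), Function.update φ n' M, fin _ _ _ ?_⟩
          rw [hBs]
          exact hst
        · push Not at hnew
          refine ⟨n', B', φ, fin _ _ _ ?_⟩
          have hset : Bef B (M + 1) = Bef B M := by
            rw [hBs]
            exact Set.union_eq_left.2 hnew
          rw [hset]
          exact hP1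
  obtain ⟨n', B', φ, hP⟩ := main n le_rfl
  refine ⟨H', n', B', φ, hle, ?_, ⟨?_, hP.card, hP.clique, hP.sep⟩, hP.lt, hP.mono, hP.new,
    hP.sub, hP.typ, hP.cov⟩
  · intro a b hab hno
    rcases (hH' a b).1 hab with h1 | h1 | h1
    · exact (hno h1).elim
    · obtain ⟨t, ht, htt, h2, h3, h4⟩ := hXt _ _ h1
      exact ⟨t, ht, htt, h2, h4⟩
    · obtain ⟨t, ht, htt, h2, h3, h4⟩ := hXt _ _ h1
      exact ⟨t, ht, htt, h4, h2⟩
  · intro x
    obtain ⟨t, ht, hx⟩ := h.cover x
    obtain ⟨s, hs, _, hxs⟩ := hP.cov t ht x hx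
    exact ⟨s, hs, hxs⟩

end Vale.Agent.P235.K5.SX.H803
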